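import Mathlib

/-!
# P097: convex billiard tables given by their support function

The table has support function `h` (origin in the plane, identified with the complex numbers),
outer unit normal `exp (ψ I)` and radius of curvature `h ψ + h'' ψ` at the boundary point
`bdry h ψ`.
-/

namespace Vale.Agent.P097

open Real

/-- The boundary point with outer unit normal `exp (ψ I)` of the convex set with support
function `h`. -/
noncomputable def bdry (h : ℝ → ℝ) (ψ : ℝ) : ℂ :=
  ((h ψ : ℂ) + ((deriv h ψ : ℝ) : ℂ) * Complex.I) * Complex.exp ((ψ : ℂ) * Complex.I)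

/-- `h` is the support function of a planar convex body whose boundary is real-analytic with
positive curvature: `h` is real-analytic, `2π`-periodic, and its radius of curvature
`h + h''` is positive. -/
def IsTable (h : ℝ → ℝ) : Prop :=
  (∀ x, AnalyticAt ℝ h x) ∧ (∀ x, h (x + 2 * π) = h x) ∧ (∀ x, 0 < h x + deriv (deriv h) x)

/-- One bounce of the billiard: from the boundary point with normal angle `ψ`, leaving at angle
`δ` from the positive tangent, the ball flies a distance `ℓ > 0` and hits the boundary at the
point with normal angle `ψ'`, where it is reflected and leaves at angle `δ'` from the positive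
tangent there. (The direction of flight has argument `ψ + δ + π/2 = ψ' - δ' + π/2`.) -/
def Step (h : ℝ → ℝ) (ψ δ ψ' δ' : ℝ) : Prop :=
  0 < δ ∧ δ < π ∧ 0 < δ' ∧ δ' < π ∧ ψ' = ψ + δ + δ' ∧
    ∃ ℓ : ℝ, 0 < ℓ ∧
      bdry h ψ' = bdry h ψ + (ℓ : ℂ) * (Complex.I * Complex.exp (((ψ + δ : ℝ) : ℂ) * Complex.I))

/-- The graph `δ = f ψ` is a rotational curve of the phase annulus which is invariant under the
billiard map. -/
def InvGraph (h f : ℝ → ℝ) : Prop :=
  Continuous f ∧ (∀ x, f (x + 2 * π) = f x) ∧ (∀ x, 0 < f x ∧ f x < π) ∧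
    ∀ ψ, ∃ ψ', Step h ψ (f ψ) ψ' (f ψ')

/-- Every phase point at angle less than `η` lies on an invariant rotational graph. -/
def Collar (h : ℝ → ℝ) (η : ℝ) : Prop :=
  ∀ ψ δ, 0 < δ → δ < η → ∃ f, InvGraph h f ∧ f ψ = δ

/-- The graph `δ = f ψ` is an invariant curve all of whose orbits are periodic, closing after `q`
bounces and one turn around the table (a rational invariant curve of rotation number `1/q`). -/
def RatLeaf (h : ℝ → ℝ) (q : ℕ) (f : ℝ → ℝ) : Prop :=
  InvGraph h f ∧ ∀ x : ℕ → ℝ, (∀ j, Step h (x j) (f (x j)) (x (j + 1)) (f (x (j + 1)))) →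
    x q = x 0 + 2 * π

end Vale.Agent.P097
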